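import Vale.Agent.P137.Main

/-!
The endpoint Sobolev bound for the uncentred Hardy–Littlewood maximal function.
-/

namespace Vale.Agent.Results.P137.UncenteredW11

open MeasureTheory
open Vale.Agent.P137
open scoped ENNReal

theorem result : ∀ d : ℕ, 2 ≤ d → ∃ C : ℝ,
    ∀ (f : EuclideanSpace ℝ (Fin d) → ℝ)
      (v : EuclideanSpace ℝ (Fin d) → EuclideanSpace ℝ (Fin d)),
      Integrable f → Integrable v → HasWeakGrad f v →
        (∀ᵐ x, Mu f x < ⊤) ∧ ∃ w : EuclideanSpace ℝ (Fin d) → EuclideanSpace ℝ (Fin d),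
          LocallyIntegrable (fun x => (Mu f x).toReal) ∧ Integrable w ∧
          HasWeakGrad (fun x => (Mu f x).toReal) w ∧ ∫ x, ‖w x‖ ≤ C * ∫ x, ‖v x‖ :=
  fun _ hd => mu_w11 hd

end Vale.Agent.Results.P137.UncenteredW11
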